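import Vale.Agent.P241.H588.Gysin
import Vale.Agent.P241.EUL.Frame
import Mathlib.Analysis.Complex.Circle

/-!
# P241: lens spaces in an oriented multiplicative theory

* `lens_gysin` : a class `w` of `CP I` whose pull back to the lens space `Lens q I` vanishes is a
  multiple of `[q](z)`;
* `LS lam κ` : the unit sphere of `ℂ^κ` with the action of `C` through a character
  `lam : C →* Circle`; `isQuo_lens` : `Lens q κ` is its quotient if `lam` is injective and
  `q = |C|`;
* `tpFrame`, `e_bun_lens` : the Euler class of the line bundle over `Lens q κ` of the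
  representation `lam ^ (-j)` is the pull back of `[j](z)`.
-/

set_option linter.unusedSectionVars false
set_option linter.style.haveILetI false

open CategoryTheory MonoidalCategory OnePoint Topology Matrix Filter
open Vale.Agent.P251.G Vale.Agent.P251.G.LC Vale.Agent.P251.G.Bun

universe v

noncomputable section

namespace Vale.Agent.P241.H588

open Vale.Agent.P251.Q Vale.Agent.P251.Q.MultTheory Vale.Agent.P241.EUL
open Vale.Agent.P217 Vale.Agent.P251.F

/-! ### The Gysin sequence of the lens space -/

section lens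

variable {E : MultTheory.{v}} (o : Orientation E) (q : ℕ) (I : Type) [Fintype I]

/-- the projection of the lens space, as a continuous map of objects of `LC` -/
abbrev lensPrC : C((LC.of (Lens q I) : LC), (CP I : LC)) := Lens.toGr q I

theorem sphHom_eq : ((taut 1 I).tpow q).sphHom = cmap (X := LC.of (Lens q I)) (Y := CP I)
    (lensPrC q I) := hom_ext fun _ => rfl

theorem e_tpow_z (j : ℕ) : o.e (B := CP I) ((taut 1 I).tpow j) ((taut_isRank 1 I).tpow1 j) =
    nev1 (o.z I) (multSeries o.law.toFG j) := by
  have h1 := e_tpow o (B := CP I) (hasLaw o) (taut 1 I) (taut_isRank 1 I) j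
  have h2 : o.e (B := CP I) (taut 1 I) (taut_isRank 1 I) = o.z I := e_taut_z o I
  rw [h2] at h1
  exact h1

/-- **UB-LENS**: a class of the projective space whose pull back to the lens space vanishes is a
multiple of `[q](z)`. -/
theorem lens_gysin {w : E.U (CP I)} (hw : E.mapAlg (lensPrC q I) w = 0) :
    ∃ w' : E.U (CP I), w = nev1 (o.z I) (multSeries o.law.toFG q) * w' := by
  have hr := (taut_isRank 1 I).tpow1 q
  haveI h1 : GoodBase E (CP I) := inferInstance
  haveI : E.Good ((taut 1 I).tpow q).bs := inferInstanceAs (E.Good (CP I))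
  haveI : E.Good (Bun.tot (X := (CP I : LC)) ((taut 1 I).tpow q)) := h1.tot _ hr
  haveI : E.Good ((taut 1 I).tpow q).sph := inferInstanceAs (E.Good (LC.of (Lens q I)))
  obtain ⟨b, hb⟩ := exists_mul_eul o (B := CP I) ((taut 1 I).tpow q) hr (y := w)
    (by rw [sphHom_eq]; exact hw)
  refine ⟨b, ?_⟩
  rw [hb, eul_eq_e, e_tpow_z, mul_comm]

/-- the class `[q](z)` pulls back to zero on the lens space -/
theorem mapAlg_lens_mult :
    E.mapAlg (lensPrC q I) (nev1 (o.z I) (multSeries o.law.toFG q)) = 0 := by
  have hr := (taut_isRank 1 I).tpow1 q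
  haveI h1 : GoodBase E (CP I) := inferInstance
  haveI : E.Good ((taut 1 I).tpow q).bs := inferInstanceAs (E.Good (CP I))
  haveI : E.Good (Bun.tot (X := (CP I : LC)) ((taut 1 I).tpow q)) := h1.tot _ hr
  haveI : E.Good ((taut 1 I).tpow q).sph := inferInstanceAs (E.Good (LC.of (Lens q I)))
  have h2 := map_sphHom_eul o (B := CP I) ((taut 1 I).tpow q) hr
  rw [sphHom_eq, eul_eq_e, e_tpow_z] at h2
  exact h2

end lens

/-! ### The sphere with the action of a cyclic group -/

section action

variable {C : Type} [Group C]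

/-- The unit sphere of `ℂ^κ` with the action of `C` through the character `lam`. -/
def LS (_ : C →* Circle) (κ : Type) [Fintype κ] : Type := SS κ

variable (lam : C →* Circle) (κ : Type) [Fintype κ]

instance : TopologicalSpace (LS lam κ) := inferInstanceAs (TopologicalSpace (SS κ))
instance : T2Space (LS lam κ) := inferInstanceAs (T2Space (SS κ))
instance : CompactSpace (LS lam κ) := inferInstanceAs (CompactSpace (SS κ))

variable {lam κ}

/-- the vector -/
def LS.v (x : LS lam κ) : κ → ℂ := SS.v x

theorem LS.ext {x y : LS lam κ} (h : x.v = y.v) : x = y := Subtype.ext h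

theorem LS.nsq_v (x : LS lam κ) : nsq x.v = 1 := SS.nsq_v x

theorem LS.continuous_v : Continuous (LS.v : LS lam κ → κ → ℂ) := SS.continuous_v

theorem normSq_circle (c : Circle) : Complex.normSq (c : ℂ) = 1 := Circle.normSq_coe c

instance : MulAction C (LS lam κ) where
  smul g x := SS.smul (lam g : ℂ) (normSq_circle _) x
  one_smul x := by
    apply LS.ext
    change ((lam 1 : Circle) : ℂ) • x.v = x.v
    rw [map_one, Circle.coe_one, one_smul]
  mul_smul g h x := by
    apply LS.ext
    change ((lam (g * h) : Circle) : ℂ) • x.v = (lam g : ℂ) • (lam h : ℂ) • x.v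
    rw [map_mul, Circle.coe_mul, mul_smul]

@[simp] theorem LS.smul_v (g : C) (x : LS lam κ) : (g • x).v = (lam g : ℂ) • x.v := rfl

instance : ContinuousConstSMul C (LS lam κ) := by
  refine ⟨fun g => ?_⟩
  exact Continuous.subtype_mk (LS.continuous_v.const_smul (lam g : ℂ)) _

variable (lam κ)

/-- the projection to the lens space -/
def lensMap (q : ℕ) (x : LS lam κ) : Lens q κ := SS.lens q x

theorem continuous_lensMap (q : ℕ) : Continuous (lensMap lam κ q) := SS.continuous_lens q

variable {lam}

/-- every root of unity is a value of the character -/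
theorem exists_of_pow_eq_one {q : ℕ} (hq : q ≠ 0) (hC : Nat.card C = q)
    (hlam : Function.Injective lam) {c : ℂ} (hc : c ^ q = 1) : ∃ g : C, (lam g : ℂ) = c := by
  classical
  haveI : Finite C := Nat.finite_of_card_ne_zero (by rw [hC]; exact hq)
  haveI : Fintype C := Fintype.ofFinite C
  have hinj : Function.Injective fun g : C => (lam g : ℂ) := fun a b h => hlam (Circle.ext h)
  have hsub : Finset.univ.image (fun g : C => (lam g : ℂ)) ⊆ Polynomial.nthRootsFinset q (1 : ℂ) := by
    intro x hx
    obtain ⟨g, -, rfl⟩ := Finset.mem_image.mp hx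
    rw [Polynomial.mem_nthRootsFinset (Nat.pos_of_ne_zero hq)]
    rw [← Circle.coe_pow, ← map_pow, ← hC, pow_card_eq_one', map_one, Circle.coe_one]
  have hcard : (Polynomial.nthRootsFinset q (1 : ℂ)).card ≤
      (Finset.univ.image (fun g : C => (lam g : ℂ))).card := by
    rw [Finset.card_image_of_injective _ hinj, Finset.card_univ, ← Nat.card_eq_fintype_card, hC]
    refine le_trans ?_ (Polynomial.card_nthRoots q (1 : ℂ))
    rw [Polynomial.nthRootsFinset]
    exact Multiset.toFinset_card_le _
  have heq := Finset.eq_of_subset_of_card_le hsub hcard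
  have hmem : c ∈ Polynomial.nthRootsFinset q (1 : ℂ) := by
    rw [Polynomial.mem_nthRootsFinset (Nat.pos_of_ne_zero hq)]
    exact hc
  rw [← heq] at hmem
  obtain ⟨g, -, hg⟩ := Finset.mem_image.mp hmem
  exact ⟨g, hg⟩

/-- **The lens space is the quotient of the sphere.** -/
theorem isQuo_lens {q : ℕ} (hq : q ≠ 0) (hC : Nat.card C = q) (hlam : Function.Injective lam) :
    IsQuo C (lensMap lam κ q) where
  quot := SS.isQuotientMap_lens hq
  orb x y := by
    constructor
    · intro h
      obtain ⟨c, hc, hy⟩ := (SS.lens_eq_iff hq).mp h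
      obtain ⟨g, hg⟩ := exists_of_pow_eq_one hq hC hlam hc
      refine ⟨g, LS.ext ?_⟩
      rw [LS.smul_v, hg]
      exact hy.symm
    · rintro ⟨g, rfl⟩
      refine (SS.lens_eq_iff hq).mpr ⟨(lam g : ℂ), ?_, rfl⟩
      rw [← Circle.coe_pow, ← map_pow, ← hC, pow_card_eq_one', map_one, Circle.coe_one]

end action

/-! ### Line bundles on the lens space -/

section frames

variable {C : Type} [Group C] {lam : C →* Circle} (κ : Type) [Fintype κ]

/-- `U` is the one dimensional representation `lam ^ (-j)`. -/
def IsPowRep (lam : C →* Circle) (j : ℕ) (U : Rep C Unit) : Prop :=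
  ∀ g : C, (U g : Matrix Unit Unit ℂ) () () * (lam g : ℂ) ^ j = 1

/-- the tautological frame of the representation `lam ^ (-j)` -/
def tpFrame (j : ℕ) {U : Rep C Unit} (hU : IsPowRep lam j U) :
    Frame (LS lam κ) U (Fin j → κ) where
  R x := Matrix.of fun a _ => tp j x.v a
  cont := continuous_matrix fun a _ => (continuous_apply a).comp
    ((continuous_tp j).comp LS.continuous_v)
  isom x := by
    ext a b
    have h1 : nsq (tp j x.v) = 1 := by rw [nsq_tp, x.nsq_v, one_pow]
    have h2 := star_dotProduct_self h1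
    rw [Matrix.mul_apply]
    exact h2
  equi g x := by
    ext a b
    rw [Matrix.mul_apply, Fintype.sum_unique]
    change tp j ((lam g : ℂ) • x.v) a * (U g : Matrix Unit Unit ℂ) () () = tp j x.v a
    rw [tp_smul, Pi.smul_apply, smul_eq_mul, mul_comm, ← mul_assoc, hU g, one_mul]

/-- the bundle of the tautological frame -/
theorem bun_tpFrame {q : ℕ} (hq : IsQuo C (lensMap lam κ q)) (j : ℕ) {U : Rep C Unit}
    (hU : IsPowRep lam j U) :
    (tpFrame κ j hU).bun hq = ((taut 1 κ).tpow j).pullback (Lens.toGr q κ) := by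
  ext1
  funext b
  obtain ⟨x, rfl⟩ := hq.surj b
  rw [Frame.bun_P]
  change (tpFrame κ j hU).R x * ((tpFrame κ j hU).R x)ᴴ = tpow j (lineP x.v)
  unfold lineP
  rw [tpow_vecMulVec, ← star_tp]
  ext a b
  rw [Matrix.mul_apply, Fintype.sum_unique]
  rfl

variable {E : MultTheory.{v}} (o : Orientation E)

/-- **The Euler class** of the line bundle of `lam ^ (-j)` over the lens space is the pull back of
`[j](z)`. -/
theorem e_bun_lens {q : ℕ} (hq : IsQuo C (lensMap lam κ q)) (j : ℕ) {U : Rep C Unit}
    (hU : IsPowRep lam j U) {ι : Type} [Fintype ι] (F : Frame (LS lam κ) U ι)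
    (hF : (F.bun hq).IsRank 1) :
    o.e (B := LC.of (Lens q κ)) (F.bun hq) hF =
      E.mapAlg (lensPrC q κ) (nev1 (o.z κ) (multSeries o.law.toFG j)) := by
  have hB : GoodBase E (LC.of (Lens q κ)) := inferInstance
  have hB' : GoodBase E (CP κ) := inferInstance
  have h1 : ((tpFrame κ j hU).bun hq).IsRank 1 := (tpFrame κ j hU).isRank hq (by simp)
  haveI := hB.tot _ hF
  haveI := hB.tot _ h1
  rw [e_isom o (B := LC.of (Lens q κ)) (F.bunIsom (tpFrame κ j hU) hq) hF h1]
  have hr := (taut_isRank 1 κ).tpow1 j
  have h2 : (((taut 1 κ).tpow j).pullback (Lens.toGr q κ)).IsRank 1 := by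
    rw [← bun_tpFrame κ hq j hU]
    exact h1
  haveI := hB'.tot _ hr
  haveI := hB.tot _ h2
  have h3 := e_pullback_alg o (B := CP κ) (B' := LC.of (Lens q κ)) (lensPrC q κ)
    ((taut 1 κ).tpow j) hr h2
  rw [e_tpow_z] at h3
  rw [← h3]
  congr 1
  exact bun_tpFrame κ hq j hU

end frames

end Vale.Agent.P241.H588
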