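import Vale.Agent.P251.Q.HasLaw
import Vale.Agent.P251.Q.Exact

/-!
# P241: the Gysin sequence of a bundle in an oriented multiplicative theory

`B` compact, `V : Bun B ι` of rank `n`. A class `y` of `B` whose pull back to the unit sphere
bundle `V.Sph` vanishes is a multiple of the Euler class of `V`: `exists_mul_eul`.
-/

set_option linter.unusedSectionVars false
set_option linter.style.haveILetI false

open CategoryTheory MonoidalCategory OnePoint Topology Matrix Filter
open Vale.Agent.P251.G Vale.Agent.P251.G.LC Vale.Agent.P251.G.Bun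

open scoped NNReal

universe v

noncomputable section

namespace Vale.Agent.P241.H588

open Vale.Agent.P251.Q Vale.Agent.P251.Q.MultTheory

/-! ### The disc bundle and the sphere bundle -/

section geo

variable {X ι : Type} [TopologicalSpace X] [T2Space X] [CompactSpace X] [Fintype ι] (V : Bun X ι)

/-- the inclusion of the sphere bundle in the disc bundle -/
def sphDisc (s : V.Sph) : V.Disc := ⟨s.1, s.2.le⟩

/-- the inclusion of the open disc bundle in the disc bundle -/
def odDisc (s : V.OD) : V.Disc := ⟨s.1, s.2.le⟩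

theorem isClosedEmbedding_sphDisc : IsClosedEmbedding (sphDisc V) := by
  have h : IsClosedEmbedding ((Subtype.val : V.Disc → V.E) ∘ sphDisc V) := V.isClosedEmbedding_Sph
  exact (V.isClosedEmbedding_Disc.of_comp_iff).mp h

theorem isOpenEmbedding_odDisc : IsOpenEmbedding (odDisc V) := by
  refine ⟨?_, ?_⟩
  · have h : IsEmbedding ((Subtype.val : V.Disc → V.E) ∘ odDisc V) :=
      IsEmbedding.subtypeVal
    exact (V.isClosedEmbedding_Disc.isEmbedding.of_comp_iff).mp h
  · have h1 : Set.range (odDisc V) = (Subtype.val : V.Disc → V.E) ⁻¹'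
        {p : V.E | nsq (Bun.vec p) < 1} := by
      ext d
      constructor
      · rintro ⟨s, rfl⟩
        exact s.2
      · intro hd
        exact ⟨⟨d.1, hd⟩, rfl⟩
    rw [h1]
    exact (V.isOpen_OD).preimage continuous_subtype_val

theorem isCompl_range : IsCompl (Set.range (sphDisc V)) (Set.range (odDisc V)) := by
  constructor
  · rw [Set.disjoint_left]
    rintro _ ⟨s, rfl⟩ ⟨t, ht⟩
    have h1 : nsq (Bun.vec t.1) < 1 := t.2
    have h2 : nsq (Bun.vec s.1) = 1 := s.2
    have h3 : t.1 = s.1 := congrArg Subtype.val ht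
    rw [h3, h2] at h1
    exact lt_irrefl _ h1
  · rw [codisjoint_iff_le_sup]
    intro d _
    rcases eq_or_lt_of_le d.2 with h | h
    · exact Or.inl ⟨⟨d.1, h⟩, rfl⟩
    · exact Or.inr ⟨⟨d.1, h⟩, rfl⟩

/-- the scaling factor of the deformation -/
def fac (p : V.Disc) (t : unitInterval) : ℝ :=
  min (1 + (t : ℝ)) (max (Bun.len p.1 : ℝ) (1 / 2))⁻¹

theorem continuous_fac : Continuous fun q : V.Disc × unitInterval => fac V q.1 q.2 := by
  have h1 : Continuous fun q : V.Disc × unitInterval => (Bun.len q.1.1 : ℝ) :=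
    NNReal.continuous_coe.comp (continuous_len.comp (continuous_subtype_val.comp continuous_fst))
  have h2 : Continuous fun q : V.Disc × unitInterval => (max (Bun.len q.1.1 : ℝ) (1 / 2))⁻¹ := by
    refine (h1.max continuous_const).inv₀ fun q => ?_
    have : (0 : ℝ) < max (Bun.len q.1.1 : ℝ) (1 / 2) := lt_max_of_lt_right (by norm_num)
    exact this.ne'
  exact (continuous_const.add (continuous_subtype_val.comp continuous_snd)).min h2

theorem fac_nonneg (p : V.Disc) (t : unitInterval) : 0 ≤ fac V p t := by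
  refine le_min (by have := t.2.1; linarith) (inv_nonneg.mpr ?_)
  exact le_max_of_le_right (by norm_num)

theorem len_le_one (p : V.Disc) : (Bun.len p.1 : ℝ) ≤ 1 := by
  have h1 : (Bun.len p.1 : ℝ) ^ 2 ≤ 1 := by rw [coe_len_sq]; exact p.2
  have h2 := NNReal.coe_nonneg (Bun.len p.1)
  nlinarith

theorem fac_mul_le (p : V.Disc) (t : unitInterval) : fac V p t * (Bun.len p.1 : ℝ) ≤ 1 := by
  have h0 := NNReal.coe_nonneg (Bun.len p.1)
  have hpos : (0 : ℝ) < max (Bun.len p.1 : ℝ) (1 / 2) := lt_max_of_lt_right (by norm_num)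
  calc fac V p t * (Bun.len p.1 : ℝ)
      ≤ (max (Bun.len p.1 : ℝ) (1 / 2))⁻¹ * max (Bun.len p.1 : ℝ) (1 / 2) :=
        mul_le_mul (min_le_right _ _) (le_max_left _ _) h0 (inv_nonneg.mpr hpos.le)
    _ = 1 := inv_mul_cancel₀ hpos.ne'

theorem fac_zero (p : V.Disc) : fac V p 0 = 1 := by
  have hpos : (0 : ℝ) < max (Bun.len p.1 : ℝ) (1 / 2) := lt_max_of_lt_right (by norm_num)
  have h1 : max (Bun.len p.1 : ℝ) (1 / 2) ≤ 1 := max_le (len_le_one V p) (by norm_num)
  unfold fac
  rw [min_eq_left]
  · simp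
  · rw [Set.Icc.coe_zero, add_zero]
    exact (one_le_inv₀ hpos).mpr h1

theorem fac_of_len_eq_one (p : V.Disc) (h : (Bun.len p.1 : ℝ) = 1) (t : unitInterval) :
    fac V p t = 1 := by
  unfold fac
  rw [h, max_eq_left (by norm_num), inv_one, min_eq_right]
  have := t.2.1
  linarith

theorem fac_one (p : V.Disc) (h : (1 : ℝ) / 2 < Bun.len p.1) : fac V p 1 = (Bun.len p.1 : ℝ)⁻¹ := by
  unfold fac
  rw [max_eq_left h.le, min_eq_right]
  have h0 : (0 : ℝ) < Bun.len p.1 := lt_trans (by norm_num) h
  rw [inv_le_comm₀ h0 (by norm_num)]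
  refine le_trans ?_ h.le
  rw [Set.Icc.coe_one]
  norm_num

theorem nsq_eq_len (p : V.E) : nsq (Bun.vec p) = (Bun.len p : ℝ) ^ 2 := (coe_len_sq p).symm

/-- the deformation of a neighbourhood of the sphere bundle -/
def expand (q : V.Disc × unitInterval) : V.Disc :=
  ⟨rsmul (fac V q.1 q.2) q.1.1, by
    rw [nsq_rsmul, nsq_eq_len, ← mul_pow]
    have h1 := fac_mul_le V q.1 q.2
    have h2 := mul_nonneg (fac_nonneg V q.1 q.2) (NNReal.coe_nonneg (Bun.len q.1.1))
    exact pow_le_one₀ h2 h1⟩

theorem continuous_expand : Continuous (expand V) := by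
  refine Continuous.subtype_mk ?_ _
  exact continuous_rsmul.comp ((continuous_fac V).prodMk (continuous_subtype_val.comp
    continuous_fst))

theorem rsmul_one (p : V.E) : rsmul 1 p = p := E_ext rfl (one_smul _ _)

theorem mem_range_sphDisc (d : V.Disc) : d ∈ Set.range (sphDisc V) ↔ (Bun.len d.1 : ℝ) = 1 := by
  constructor
  · rintro ⟨s, rfl⟩
    have h1 : nsq (Bun.vec s.1) = 1 := s.2
    have h0 := NNReal.coe_nonneg (Bun.len s.1)
    have h2 : (Bun.len s.1 : ℝ) ^ 2 = 1 := by rw [coe_len_sq, h1]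
    exact (pow_eq_one_iff_of_nonneg h0 two_ne_zero).mp h2
  · intro h
    refine ⟨⟨d.1, ?_⟩, rfl⟩
    rw [nsq_eq_len, h, one_pow]

theorem cofib_sphDisc : Cofib (ofClosed (X := V.sph) (Y := V.disc) (sphDisc V)
    (isClosedEmbedding_sphDisc V)) := by
  refine cofib_of_ndr (injective_app_ofClosed (Z := V.sph) (Y := V.disc) (sphDisc V)
    (isClosedEmbedding_sphDisc V)) (fun p : V.Disc => 2 * (1 - (Bun.len p.1 : ℝ))) ?_ ?_ ?_
    (ofCompact (X := LC.of (V.Disc × unitInterval)) (Y := V.disc) (expand V)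
      (continuous_expand V)) ?_ ?_ ?_
  · have h1 : Continuous fun q : V.Disc => (Bun.len q.1 : ℝ) :=
      NNReal.continuous_coe.comp (continuous_len.comp continuous_subtype_val)
    exact continuous_const.mul (continuous_const.sub h1)
  · intro p
    have := len_le_one V p
    change 0 ≤ 2 * (1 - (Bun.len (Subtype.val (p := fun q : V.E => nsq (Bun.vec q) ≤ 1) p) : ℝ))
    linarith
  · intro p
    rw [coe_mem_range_app_ofClosed (Z := V.sph) (Y := V.disc) (sphDisc V)
      (isClosedEmbedding_sphDisc V) p, mem_range_sphDisc]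
    change 2 * (1 - (Bun.len (Subtype.val (p := fun q : V.E => nsq (Bun.vec q) ≤ 1) p) : ℝ)) = 0 ↔ _
    constructor <;> intro h <;> linarith
  · apply hom_ext
    intro p
    rw [app_comp, app_incl]
    change ((expand V (p, 0) : V.Disc) : OnePoint V.Disc) = p
    congr 1
    apply Subtype.ext
    change rsmul (fac V p 0) p.1 = p.1
    rw [fac_zero, rsmul_one]
  · intro p t h
    change ((expand V (p, t) : V.Disc) : OnePoint V.Disc) = p
    congr 1
    apply Subtype.ext
    change rsmul (fac V p t) p.1 = p.1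
    rw [fac_of_len_eq_one V p (by linarith), rsmul_one]
  · intro p h
    change ((expand V (p, 1) : V.Disc) : OnePoint V.Disc) ∈ _
    have h1 : (1 : ℝ) / 2 < Bun.len p.1 := by linarith
    rw [coe_mem_range_app_ofClosed (Z := V.sph) (Y := V.disc) (sphDisc V)
      (isClosedEmbedding_sphDisc V) (expand V (p, 1)), mem_range_sphDisc]
    have h0 : (0 : ℝ) < Bun.len p.1 := lt_trans (by norm_num) h1
    have h2 : (Bun.len (expand V (p, 1)).1 : ℝ) ^ 2 = 1 := by
      rw [coe_len_sq]
      change nsq (Bun.vec (rsmul (fac V p 1) p.1)) = 1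
      rw [nsq_rsmul, nsq_eq_len, ← mul_pow, fac_one V p h1, inv_mul_cancel₀ h0.ne', one_pow]
    have h3 := NNReal.coe_nonneg (Bun.len (expand V (p, 1)).1)
    exact (pow_eq_one_iff_of_nonneg h3 two_ne_zero).mp h2

instance : LocallyCompactSpace V.OD :=
  (V.isOpen_OD.isOpenEmbedding_subtypeVal).locallyCompactSpace

instance : T2Space V.OD := inferInstanceAs (T2Space (Subtype _))

/-- the cofibre sequence of the sphere and the disc bundle -/
theorem cofSeq_sphDisc : CofSeq (ofClosed (X := V.sph) (Y := V.disc) (sphDisc V)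
    (isClosedEmbedding_sphDisc V)) (ofOpen (X := V.disc) (Y := LC.of V.OD) (odDisc V)
      (isOpenEmbedding_odDisc V)) :=
  CofSeq.of_closed_open (Z := V.sph) (Y := V.disc) (V := LC.of V.OD) (sphDisc V) _ (odDisc V) _
    (isCompl_range V) (cofib_sphDisc V)

/-- the zero vector of the disc bundle -/
def zeroD (x : X) : V.Disc := ⟨V.zeroSec x, by
  rw [vec_zeroSec, nsq_zero]
  exact zero_le_one⟩

theorem continuous_zeroD : Continuous (zeroD V) :=
  V.isClosedEmbedding_zeroSec.continuous.subtype_mk _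

/-- the zero vector of the open disc bundle -/
def zeroO (x : X) : V.OD := ⟨V.zeroSec x, by
  rw [vec_zeroSec, nsq_zero]
  exact zero_lt_one⟩

/-- scaling -/
def scaleD (q : V.Disc × unitInterval) : V.Disc :=
  ⟨rsmul ((q.2 : unitInterval) : ℝ) q.1.1, by
    rw [nsq_rsmul]
    have h1 : nsq (Bun.vec q.1.1) ≤ 1 := q.1.2
    have h2 := nsq_nonneg (Bun.vec q.1.1)
    have h3 := q.2.2.1
    have h4 := q.2.2.2
    have h5 : ((q.2 : unitInterval) : ℝ) ^ 2 ≤ 1 := pow_le_one₀ h3 h4
    nlinarith⟩

theorem continuous_scaleD : Continuous (scaleD V) :=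
  Continuous.subtype_mk (continuous_rsmul.comp ((continuous_subtype_val.comp
    continuous_snd).prodMk (continuous_subtype_val.comp continuous_fst))) _

theorem scaleD_zero (x : V.Disc) : scaleD V (x, 0) = zeroD V x.base := by
  apply Subtype.ext
  refine E_ext rfl ?_
  change ((0 : unitInterval) : ℝ) • Bun.vec x.1 = Bun.vec (V.zeroSec x.base)
  rw [Set.Icc.coe_zero, zero_smul, vec_zeroSec]

theorem scaleD_one (x : V.Disc) : scaleD V (x, 1) = x := by
  apply Subtype.ext
  refine E_ext rfl ?_
  change ((1 : unitInterval) : ℝ) • Bun.vec x.1 = Bun.vec x.1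
  rw [Set.Icc.coe_one, one_smul]

/-- the disc bundle is homotopy equivalent to the base -/
theorem hEquiv_disc : HEquiv V.bs V.disc := by
  refine ⟨ofCompact (X := V.bs) (Y := V.disc) (zeroD V) (continuous_zeroD V), V.discHom, ?_, ?_⟩
  · exact Homotopic.of_eq (hom_ext fun x => rfl)
  · refine ⟨ofCompact (X := LC.of (V.Disc × unitInterval)) (Y := V.disc) (scaleD V)
      (continuous_scaleD V), ?_, ?_⟩
    · apply hom_ext
      intro x
      exact congrArg (fun d : V.Disc => (d : OnePoint V.Disc)) (scaleD_zero V x)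
    · apply hom_ext
      intro x
      exact congrArg (fun d : V.Disc => (d : OnePoint V.Disc)) (scaleD_one V x)

end geo

section gysin

variable {B : LC} [CompactSpace B] {ι : Type} [Fintype ι] {n : ℕ} {E : MultTheory.{v}}
  (o : Orientation E)

/-- exactness for the zero section and the sphere bundle -/
theorem exists_zeroHom (V : Bun B ι) [E.Good B] [E.Good V.tot] [E.Good V.sph] {y : E.U B}
    (hy : E.map V.sphHom y = 0) : ∃ c : E.U V.tot, E.map V.zeroHom c = y := by
  haveI : E.Good V.disc := Good.of_hEquiv E (hEquiv_disc V)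
  let iD : V.sph ⟶ V.disc := ofClosed (X := V.sph) (Y := V.disc) (sphDisc V)
    (isClosedEmbedding_sphDisc V)
  let qD : V.disc ⟶ LC.of V.OD := ofOpen (X := V.disc) (Y := LC.of V.OD) (odDisc V)
    (isOpenEmbedding_odDisc V)
  let zD : V.bs ⟶ V.disc := ofCompact (X := V.bs) (Y := V.disc) (zeroD V) (continuous_zeroD V)
  have h : CofSeq iD qD := cofSeq_sphDisc V
  haveI : E.Good (LC.of V.OD) := h.good
  have h0 : iD ≫ V.discHom = V.sphHom := hom_ext fun x => rfl
  have h1 : E.map iD (E.map V.discHom y) = 0 := by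
    rw [← MultTheory.map_comp, h0]
    exact hy
  obtain ⟨c, hc⟩ := (exact_mid h _).mp h1
  let e : LC.of V.OD ≅ V.tot := ofHomeo (X := LC.of V.OD) (Y := V.tot) V.discHomeo
  refine ⟨E.map e.inv c, ?_⟩
  have h2 : zD ≫ V.discHom = 𝟙 V.bs := hom_ext fun x => rfl
  have h3 : V.zeroHom ≫ e.inv = zD ≫ qD := by
    rw [Iso.comp_inv_eq]
    apply hom_ext
    intro x
    have h4 : LC.app qD ((zeroD V x : V.Disc) : OnePoint V.Disc) = ((zeroO V x : V.OD) :
      OnePoint V.OD) := app_ofOpen_coe (X := V.disc) (Y := LC.of V.OD) (odDisc V)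
        (isOpenEmbedding_odDisc V) (zeroO V x)
    rw [Category.assoc, app_comp, app_comp]
    change _ = LC.app e.hom (LC.app qD ((zeroD V x : V.Disc) : OnePoint V.Disc))
    rw [h4]
    change ((V.zeroSec x : V.E) : OnePoint V.E) = ((V.discHomeo (zeroO V x) : V.E) : OnePoint V.E)
    congr 1
    refine E_ext rfl ?_
    change Bun.vec (V.zeroSec x) = _ • Bun.vec (V.zeroSec x)
    rw [vec_zeroSec, smul_zero]
  rw [← MultTheory.map_comp, h3, MultTheory.map_comp, hc, ← MultTheory.map_comp, h2,
    MultTheory.map_id]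

/-- **The Gysin sequence**: a class whose pull back to the sphere bundle vanishes is a multiple of
the Euler class. -/
theorem exists_mul_eul (V : Bun B ι) (hV : V.IsRank n) [E.Good B] [E.Good V.tot] [E.Good V.sph]
    {y : E.U B} (hy : E.map V.sphHom y = 0) : ∃ b : E.U B, y = b * o.eul V hV := by
  obtain ⟨c, hc⟩ := exists_zeroHom V hy
  obtain ⟨b, hb⟩ := (act_thomCl_bijective o V hV).2 c
  refine ⟨b, ?_⟩
  have hb' : E.act (tcb V) b (o.thomCl V hV) = c := hb
  rw [Orientation.eul, ← map_zeroHom_act, hb', hc]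

/-- the Euler class pulls back to zero on the sphere bundle -/
theorem map_sphHom_eul (V : Bun B ι) (hV : V.IsRank n) [E.Good B] [E.Good V.tot] [E.Good V.sph] :
    E.map V.sphHom (o.eul V hV) = 0 := by
  rw [Orientation.eul, ← MultTheory.map_comp, ← V.coneBase_polarHom, MultTheory.map_comp,
    eq_zero_of_contr (contr_tensor_HH V.sph) (E.map V.polarHom (o.thomCl V hV)),
    _root_.map_zero]

end gysin

end Vale.Agent.P241.H588
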