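import Vale.Agent.P241.H588.Sqz
import Mathlib.CategoryTheory.Monoidal.Closed.Basic

/-!
# P241: the internal hom of a module is a module

`M : ModStr R N`, `A` an object of a closed symmetric monoidal category: `ihomMod A M` is the
action of `R` on `ihom A N`; `uncurry_act` describes it through `Hom(A ⊗ X, N)`.
-/

open CategoryTheory MonoidalCategory Limits MonObj

universe v u

set_option linter.unusedSectionVars false

noncomputable section

namespace Vale.Agent.P241.H588

open Vale.Agent.P251.S Vale.Agent.P251.M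

variable {T : Type u} [Category.{v} T] [MonoidalCategory T] [SymmetricCategory T]

/-- the exchange `A ⊗ (R ⊗ H) ⟶ R ⊗ (A ⊗ H)` -/
def sw (A R H : T) : A ⊗ (R ⊗ H) ⟶ R ⊗ (A ⊗ H) :=
  (α_ A R H).inv ≫ (β_ A R).hom ▷ H ≫ (α_ R A H).hom

@[reassoc]
theorem sw_nat_left {A A' : T} (f : A ⟶ A') (R H : T) :
    f ▷ (R ⊗ H) ≫ sw A' R H = sw A R H ≫ R ◁ (f ▷ H) := by
  simp only [sw, Category.assoc]
  rw [associator_inv_naturality_left_assoc, ← comp_whiskerRight_assoc,
    BraidedCategory.braiding_naturality_left, comp_whiskerRight_assoc,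
    associator_naturality_middle]

@[reassoc]
theorem sw_nat_mid (A : T) {R R' : T} (f : R ⟶ R') (H : T) :
    A ◁ (f ▷ H) ≫ sw A R' H = sw A R H ≫ f ▷ (A ⊗ H) := by
  simp only [sw, Category.assoc]
  rw [associator_inv_naturality_middle_assoc, ← comp_whiskerRight_assoc,
    BraidedCategory.braiding_naturality_right, comp_whiskerRight_assoc,
    associator_naturality_left]

@[reassoc]
theorem sw_nat_right (A R : T) {H H' : T} (f : H ⟶ H') :
    A ◁ (R ◁ f) ≫ sw A R H' = sw A R H ≫ R ◁ (A ◁ f) := by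
  simp only [sw, Category.assoc]
  rw [associator_inv_naturality_right_assoc, whisker_exchange_assoc,
    associator_naturality_right]

@[reassoc]
theorem sw_unit (A H : T) : sw A (𝟙_ T) H ≫ (λ_ (A ⊗ H)).hom = A ◁ (λ_ H).hom := by
  simp only [sw, Category.assoc]
  rw [leftUnitor_tensor_hom, Iso.hom_inv_id_assoc, ← comp_whiskerRight, braiding_leftUnitor,
    Iso.inv_comp_eq, triangle]

@[reassoc]
theorem sw_tensor (A R R' H : T) : sw A (R ⊗ R') H ≫ (α_ R R' (A ⊗ H)).hom =
    A ◁ (α_ R R' H).hom ≫ sw A R (R' ⊗ H) ≫ R ◁ sw A R' H := by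
  simp only [sw, Category.assoc, MonoidalCategory.whiskerLeft_comp,
    BraidedCategory.braiding_tensor_right_hom, comp_whiskerRight]
  monoidal

variable [MonoidalClosed T] {R N : T} [MonObj R]

/-- the evaluation -/
def evA (A N : T) : A ⊗ (ihom A).obj N ⟶ N := (ihom.ev A).app N

theorem uncurry_eq' {A N X : T} (g : X ⟶ (ihom A).obj N) :
    MonoidalClosed.uncurry g = A ◁ g ≫ evA A N := MonoidalClosed.uncurry_eq g

/-- the action on the internal hom -/
def ihomAct (A : T) (M : ModStr R N) : R ⊗ (ihom A).obj N ⟶ (ihom A).obj N :=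
  MonoidalClosed.curry (sw A R ((ihom A).obj N) ≫ R ◁ evA A N ≫ M.act)

theorem uncurry_ihomAct (A : T) (M : ModStr R N) : MonoidalClosed.uncurry (ihomAct A M) =
    sw A R ((ihom A).obj N) ≫ R ◁ evA A N ≫ M.act :=
  MonoidalClosed.uncurry_curry _

/-- the action on the internal hom, evaluated -/
theorem uncurry_comp_ihomAct (A : T) (M : ModStr R N) {X : T} (x : X ⟶ R ⊗ (ihom A).obj N) :
    MonoidalClosed.uncurry (x ≫ ihomAct A M) =
      A ◁ x ≫ sw A R ((ihom A).obj N) ≫ R ◁ evA A N ≫ M.act := by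
  rw [MonoidalClosed.uncurry_natural_left, uncurry_ihomAct]

/-- The `R`-module `ihom A N`. -/
def ihomMod (A : T) (M : ModStr R N) : ModStr R ((ihom A).obj N) where
  act := ihomAct A M
  one_act := by
    apply MonoidalClosed.uncurry_injective
    rw [uncurry_comp_ihomAct, sw_nat_mid_assoc, ← whisker_exchange_assoc, M.one_act,
      leftUnitor_naturality, sw_unit_assoc, uncurry_eq']
  mul_act := by
    apply MonoidalClosed.uncurry_injective
    rw [uncurry_comp_ihomAct, sw_nat_mid_assoc, ← whisker_exchange_assoc, M.mul_act,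
      associator_naturality_right_assoc, sw_tensor_assoc]
    rw [← Category.assoc (α_ R R ((ihom A).obj N)).hom, uncurry_comp_ihomAct,
      MonoidalCategory.whiskerLeft_comp, Category.assoc, sw_nat_right_assoc,
      ← MonoidalCategory.whiskerLeft_comp_assoc R (A ◁ _), ← uncurry_eq', uncurry_ihomAct]
    simp only [MonoidalCategory.whiskerLeft_comp, Category.assoc]

/-- the action on the internal hom for decomposable elements -/
theorem uncurry_ihomMod (A : T) (M : ModStr R N) {X Y : T} (f : X ⟶ R)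
    (g : Y ⟶ (ihom A).obj N) :
    MonoidalClosed.uncurry ((f ⊗ₘ g) ≫ (ihomMod A M).act) =
      sw A X Y ≫ (f ⊗ₘ MonoidalClosed.uncurry g) ≫ M.act := by
  change MonoidalClosed.uncurry ((f ⊗ₘ g) ≫ ihomAct A M) = _
  rw [uncurry_comp_ihomAct, tensorHom_def, MonoidalCategory.whiskerLeft_comp, Category.assoc,
    sw_nat_right_assoc, sw_nat_mid_assoc, ← MonoidalCategory.whiskerLeft_comp_assoc R (A ◁ g),
    ← uncurry_eq', tensorHom_def, Category.assoc]

/-- scalars act through the module -/
theorem ihomMod_smul (A : T) (M : ModStr R N) (a : 𝟙_ T ⟶ R) :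
    (ihomMod A M).smul a = (ihom A).map (M.smul a) := by
  apply MonoidalClosed.uncurry_injective
  rw [ModStr.smul, MonoidalClosed.uncurry_natural_left, ← tensorHom_id, uncurry_ihomMod,
    uncurry_eq', MonoidalCategory.whiskerLeft_id, Category.id_comp, tensorHom_def', Category.assoc]
  have h1 : A ◁ (λ_ ((ihom A).obj N)).inv ≫ sw A (𝟙_ T) ((ihom A).obj N) =
      (λ_ (A ⊗ (ihom A).obj N)).inv := by
    rw [← cancel_mono (λ_ (A ⊗ (ihom A).obj N)).hom, Category.assoc, sw_unit,
      ← MonoidalCategory.whiskerLeft_comp, Iso.inv_hom_id, Iso.inv_hom_id,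
      MonoidalCategory.whiskerLeft_id]
  rw [reassoc_of% h1]
  erw [MonoidalClosed.uncurry_ihom_map]
  change _ = evA A N ≫ M.smul a
  rw [ModStr.smul, leftUnitor_inv_naturality_assoc]

/-- linear maps induce linear maps of internal homs -/
theorem isLinear_ihom_map (A : T) {N' : T} {M : ModStr R N} {M' : ModStr R N'} {f : N ⟶ N'}
    (h : M.IsLinear M' f) : (ihomMod A M).IsLinear (ihomMod A M') ((ihom A).map f) := by
  change ihomAct A M ≫ _ = _ ≫ ihomAct A M'
  apply MonoidalClosed.uncurry_injective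
  rw [uncurry_comp_ihomAct, sw_nat_right_assoc, ← MonoidalCategory.whiskerLeft_comp_assoc R (A ◁ _),
    ← uncurry_eq', MonoidalClosed.uncurry_ihom_map, MonoidalClosed.uncurry_natural_right,
    uncurry_ihomAct, Category.assoc, Category.assoc, h]
  change _ = _ ≫ R ◁ (evA A N ≫ f) ≫ _
  rw [MonoidalCategory.whiskerLeft_comp_assoc]

end Vale.Agent.P241.H588
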