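import Vale.Agent.P251.M.Kleisli

/-!
# P241: the trivial square zero extension of a commutative monoid by a module

`R` a commutative monoid of a preadditive symmetric monoidal category, `M : ModStr R Z`. The
biproduct `R ⊞ Z` is a commutative monoid, `Sqz M`, with monoid maps `inl : R ⟶ Sqz M`,
`fst : Sqz M ⟶ R`; the product vanishes on `Z ⊗ Z`.
-/

open CategoryTheory MonoidalCategory Limits MonObj

universe v u

set_option linter.unusedSectionVars false

noncomputable section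

namespace Vale.Agent.P241.H588

open Vale.Agent.P251.S Vale.Agent.P251.M

variable {T : Type u} [Category.{v} T] [Preadditive T] [MonoidalCategory T]
  [SymmetricCategory T] {R Z : T} [MonObj R]

section act

variable [IsCommMonObj R] (M : ModStr R Z)

/-- the two actions commute -/
@[reassoc]
theorem act_ract : M.act ▷ R ≫ ract M = (α_ R Z R).hom ≫ R ◁ ract M ≫ M.act := by
  rw [ract, BraidedCategory.braiding_naturality_left_assoc, MonoidalCategory.whiskerLeft_comp,
    Category.assoc]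
  have h : R ◁ M.act ≫ M.act = (α_ R R Z).inv ≫ μ[R] ▷ Z ≫ M.act := by
    rw [M.mul_act, Iso.inv_hom_id_assoc]
  rw [h, BraidedCategory.braiding_tensor_left_hom]
  simp only [Category.assoc, Iso.hom_inv_id_assoc]
  rw [← comp_whiskerRight_assoc, IsCommMonObj.mul_comm]

@[reassoc]
theorem ract_ract : ract M ▷ R ≫ ract M = (α_ Z R R).hom ≫ Z ◁ μ[R] ≫ ract M := by
  rw [whiskerLeft_mul_ract, Iso.hom_inv_id_assoc]

end act

variable [MonoidalPreadditive T] [HasBinaryBiproducts T]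

/-- The object `R ⊞ Z`. -/
def Sqz (_ : ModStr R Z) : T := R ⊞ Z

namespace Sqz

variable (M : ModStr R Z)

/-- the projection to `R` -/
def fst : Sqz M ⟶ R := biprod.fst
/-- the projection to `Z` -/
def snd : Sqz M ⟶ Z := biprod.snd
/-- the inclusion of `R` -/
def inl : R ⟶ Sqz M := biprod.inl
/-- the inclusion of `Z` -/
def inr : Z ⟶ Sqz M := biprod.inr
/-- a map with given components -/
def lift {X : T} (f : X ⟶ R) (g : X ⟶ Z) : X ⟶ Sqz M := biprod.lift f g

@[reassoc (attr := simp)] theorem inl_fst : inl M ≫ fst M = 𝟙 _ := biprod.inl_fst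
@[reassoc (attr := simp)] theorem inl_snd : inl M ≫ snd M = 0 := biprod.inl_snd
@[reassoc (attr := simp)] theorem inr_fst : inr M ≫ fst M = 0 := biprod.inr_fst
@[reassoc (attr := simp)] theorem inr_snd : inr M ≫ snd M = 𝟙 _ := biprod.inr_snd
@[reassoc (attr := simp)] theorem lift_fst {X : T} (f : X ⟶ R) (g : X ⟶ Z) :
    lift M f g ≫ fst M = f := biprod.lift_fst f g
@[reassoc (attr := simp)] theorem lift_snd {X : T} (f : X ⟶ R) (g : X ⟶ Z) :
    lift M f g ≫ snd M = g := biprod.lift_snd f g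

theorem total : fst M ≫ inl M + snd M ≫ inr M = 𝟙 _ := biprod.total

variable {M}

theorem ext {X : T} {f g : X ⟶ Sqz M} (h1 : f ≫ fst M = g ≫ fst M)
    (h2 : f ≫ snd M = g ≫ snd M) : f = g := biprod.hom_ext f g h1 h2

variable (M)

/-- the product -/
def mu : Sqz M ⊗ Sqz M ⟶ Sqz M :=
  lift M ((fst M ⊗ₘ fst M) ≫ μ[R]) ((fst M ⊗ₘ snd M) ≫ M.act + (snd M ⊗ₘ fst M) ≫ ract M)

@[reassoc]
theorem mu_fst : mu M ≫ fst M = (fst M ⊗ₘ fst M) ≫ μ[R] := lift_fst _ _ _

@[reassoc]
theorem mu_snd : mu M ≫ snd M = (fst M ⊗ₘ snd M) ≫ M.act + (snd M ⊗ₘ fst M) ≫ ract M :=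
  lift_snd _ _ _

theorem wr_tensor {A B X Y Z' : T} (a : A ⟶ B) (f : B ⟶ X) (g : Y ⟶ Z') :
    a ▷ Y ≫ (f ⊗ₘ g) = (a ≫ f) ⊗ₘ g := by
  rw [← tensorHom_id, tensorHom_comp_tensorHom, Category.id_comp]

theorem wl_tensor {A B X Y Z' : T} (a : A ⟶ B) (f : Y ⟶ Z') (g : B ⟶ X) :
    Y ◁ a ≫ (f ⊗ₘ g) = f ⊗ₘ (a ≫ g) := by
  rw [← id_tensorHom, tensorHom_comp_tensorHom, Category.id_comp]

variable [IsCommMonObj R]

theorem mu_assoc_fst : (mu M ▷ Sqz M ≫ mu M) ≫ fst M =
    ((α_ _ _ _).hom ≫ Sqz M ◁ mu M ≫ mu M) ≫ fst M := by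
  simp only [Category.assoc]
  rw [mu_fst, ← Category.assoc (mu M ▷ Sqz M), wr_tensor, mu_fst,
    ← Category.assoc (Sqz M ◁ mu M), wl_tensor, mu_fst]
  have h1 : ((fst M ⊗ₘ fst M) ≫ μ[R]) ⊗ₘ fst M = ((fst M ⊗ₘ fst M) ⊗ₘ fst M) ≫ μ[R] ▷ R := by
    rw [← tensorHom_id, tensorHom_comp_tensorHom, Category.comp_id]
  have h2 : fst M ⊗ₘ ((fst M ⊗ₘ fst M) ≫ μ[R]) = (fst M ⊗ₘ (fst M ⊗ₘ fst M)) ≫ R ◁ μ[R] := by
    rw [← id_tensorHom, tensorHom_comp_tensorHom, Category.comp_id]
  rw [h1, h2, Category.assoc, Category.assoc, MonObj.mul_assoc, associator_naturality_assoc]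

theorem mu_assoc_snd : (mu M ▷ Sqz M ≫ mu M) ≫ snd M =
    ((α_ _ _ _).hom ≫ Sqz M ◁ mu M ≫ mu M) ≫ snd M := by
  simp only [Category.assoc]
  rw [mu_snd, Preadditive.comp_add, Preadditive.comp_add, Preadditive.comp_add,
    ← Category.assoc (mu M ▷ Sqz M), wr_tensor, ← Category.assoc (mu M ▷ Sqz M), wr_tensor,
    mu_fst, mu_snd, ← Category.assoc (Sqz M ◁ mu M), wl_tensor, ← Category.assoc (Sqz M ◁ mu M),
    wl_tensor, mu_fst, mu_snd]
  have h1 : ((fst M ⊗ₘ fst M) ≫ μ[R]) ⊗ₘ snd M = ((fst M ⊗ₘ fst M) ⊗ₘ snd M) ≫ μ[R] ▷ Z := by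
    rw [← tensorHom_id, tensorHom_comp_tensorHom, Category.comp_id]
  have h2 : ((fst M ⊗ₘ snd M) ≫ M.act) ⊗ₘ fst M =
      ((fst M ⊗ₘ snd M) ⊗ₘ fst M) ≫ M.act ▷ R := by
    rw [← tensorHom_id, tensorHom_comp_tensorHom, Category.comp_id]
  have h3 : ((snd M ⊗ₘ fst M) ≫ ract M) ⊗ₘ fst M =
      ((snd M ⊗ₘ fst M) ⊗ₘ fst M) ≫ ract M ▷ R := by
    rw [← tensorHom_id, tensorHom_comp_tensorHom, Category.comp_id]
  have h4 : fst M ⊗ₘ ((fst M ⊗ₘ snd M) ≫ M.act) =
      (fst M ⊗ₘ (fst M ⊗ₘ snd M)) ≫ R ◁ M.act := by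
    rw [← id_tensorHom, tensorHom_comp_tensorHom, Category.comp_id]
  have h5 : fst M ⊗ₘ ((snd M ⊗ₘ fst M) ≫ ract M) =
      (fst M ⊗ₘ (snd M ⊗ₘ fst M)) ≫ R ◁ ract M := by
    rw [← id_tensorHom, tensorHom_comp_tensorHom, Category.comp_id]
  have h6 : snd M ⊗ₘ ((fst M ⊗ₘ fst M) ≫ μ[R]) = (snd M ⊗ₘ (fst M ⊗ₘ fst M)) ≫ Z ◁ μ[R] := by
    rw [← id_tensorHom, tensorHom_comp_tensorHom, Category.comp_id]
  rw [MonoidalPreadditive.add_tensor, MonoidalPreadditive.tensor_add, h1, h2, h3, h4, h5, h6]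
  simp only [Preadditive.add_comp, Preadditive.comp_add, Category.assoc]
  rw [M.mul_act, act_ract, ract_ract]
  simp only [associator_naturality_assoc]
  abel

theorem unit_tensor {Y X : T} (f : Y ⟶ X) {W : T} (a : R ⊗ X ⟶ W) (b : X ⟶ W)
    (h : η[R] ▷ X ≫ a = (λ_ X).hom ≫ b) : (η[R] ⊗ₘ f) ≫ a = (λ_ Y).hom ≫ f ≫ b := by
  rw [tensorHom_def', Category.assoc, h, leftUnitor_naturality_assoc]

theorem tensor_unit' {Y X : T} (f : Y ⟶ X) {W : T} (a : X ⊗ R ⟶ W) (b : X ⟶ W)
    (h : X ◁ η[R] ≫ a = (ρ_ X).hom ≫ b) : (f ⊗ₘ η[R]) ≫ a = (ρ_ Y).hom ≫ f ≫ b := by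
  rw [tensorHom_def, Category.assoc, h, rightUnitor_naturality_assoc]

instance : MonObj (Sqz M) where
  one := η[R] ≫ inl M
  mul := mu M
  one_mul := by
    refine ext ?_ ?_
    · rw [Category.assoc, mu_fst, ← Category.assoc, wr_tensor, Category.assoc, inl_fst,
        Category.comp_id, unit_tensor (fst M) μ[R] (𝟙 R) (by rw [MonObj.one_mul, Category.comp_id]),
        Category.comp_id]
    · rw [Category.assoc, mu_snd, Preadditive.comp_add, ← Category.assoc, wr_tensor,
        ← Category.assoc, wr_tensor, Category.assoc, inl_fst, Category.comp_id, Category.assoc,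
        inl_snd, comp_zero, MonoidalPreadditive.zero_tensor, zero_comp, add_zero,
        unit_tensor (snd M) M.act (𝟙 Z) (by rw [M.one_act, Category.comp_id]), Category.comp_id]
  mul_one := by
    refine ext ?_ ?_
    · rw [Category.assoc, mu_fst, ← Category.assoc, wl_tensor, Category.assoc, inl_fst,
        Category.comp_id, tensor_unit' (fst M) μ[R] (𝟙 R) (by rw [MonObj.mul_one, Category.comp_id]),
        Category.comp_id]
    · rw [Category.assoc, mu_snd, Preadditive.comp_add, ← Category.assoc, wl_tensor,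
        ← Category.assoc, wl_tensor, Category.assoc, inl_snd, comp_zero, Category.assoc, inl_fst,
        Category.comp_id, MonoidalPreadditive.tensor_zero, zero_comp, zero_add,
        tensor_unit' (snd M) (ract M) (𝟙 Z) (by rw [whiskerLeft_one_ract, Category.comp_id]),
        Category.comp_id]
  mul_assoc := ext (mu_assoc_fst M) (mu_assoc_snd M)

theorem one_def : η[Sqz M] = η[R] ≫ inl M := rfl

theorem mul_def : μ[Sqz M] = mu M := rfl

instance : IsCommMonObj (Sqz M) where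
  mul_comm := by
    rw [mul_def]
    refine ext ?_ ?_
    · rw [Category.assoc, mu_fst, ← BraidedCategory.braiding_naturality_assoc,
        IsCommMonObj.mul_comm]
    · rw [Category.assoc, mu_snd, Preadditive.comp_add,
        ← BraidedCategory.braiding_naturality_assoc, ← BraidedCategory.braiding_naturality_assoc,
        ract, SymmetricCategory.symmetry_assoc, add_comm]

instance isMonHom_inl : IsMonHom (inl M) where
  one_hom := rfl
  mul_hom := by
    rw [mul_def]
    refine ext ?_ ?_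
    · rw [Category.assoc, inl_fst, Category.comp_id, Category.assoc, mu_fst,
        tensorHom_comp_tensorHom_assoc, inl_fst, id_tensorHom_id, Category.id_comp]
    · rw [Category.assoc, inl_snd, comp_zero, Category.assoc, mu_snd, Preadditive.comp_add,
        tensorHom_comp_tensorHom_assoc, tensorHom_comp_tensorHom_assoc, inl_snd,
        MonoidalPreadditive.tensor_zero, MonoidalPreadditive.zero_tensor, zero_comp, zero_comp,
        add_zero]

instance isMonHom_fst : IsMonHom (fst M) where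
  one_hom := by rw [one_def, Category.assoc, inl_fst, Category.comp_id]
  mul_hom := by rw [mul_def, mu_fst]

/-- the product vanishes on `Z ⊗ Z` -/
theorem inr_inr_mul : (inr M ⊗ₘ inr M) ≫ μ[Sqz M] = 0 := by
  rw [mul_def]
  refine ext ?_ ?_
  · rw [Category.assoc, mu_fst, tensorHom_comp_tensorHom_assoc, inr_fst,
      MonoidalPreadditive.tensor_zero, zero_comp, zero_comp]
  · rw [Category.assoc, mu_snd, Preadditive.comp_add, tensorHom_comp_tensorHom_assoc,
      tensorHom_comp_tensorHom_assoc, inr_fst, MonoidalPreadditive.tensor_zero,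
      MonoidalPreadditive.zero_tensor, zero_comp, zero_comp, add_zero, zero_comp]

/-- the product of `R` and `Z` is the action -/
@[reassoc]
theorem inl_inr_mul : (inl M ⊗ₘ inr M) ≫ μ[Sqz M] = M.act ≫ inr M := by
  rw [mul_def]
  refine ext ?_ ?_
  · rw [Category.assoc, mu_fst, tensorHom_comp_tensorHom_assoc, inr_fst,
      MonoidalPreadditive.tensor_zero, zero_comp, Category.assoc, inr_fst, comp_zero]
  · rw [Category.assoc, mu_snd, Preadditive.comp_add, tensorHom_comp_tensorHom_assoc,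
      tensorHom_comp_tensorHom_assoc, inl_fst, inr_snd, inl_snd, inr_fst,
      MonoidalPreadditive.tensor_zero, zero_comp, add_zero, id_tensorHom_id, Category.id_comp,
      Category.assoc, inr_snd, Category.comp_id]

/-- the product of `Z` and `R` -/
@[reassoc]
theorem inr_inl_mul : (inr M ⊗ₘ inl M) ≫ μ[Sqz M] = ract M ≫ inr M := by
  have h : (β_ Z R).hom ≫ (inl M ⊗ₘ inr M) ≫ μ[Sqz M] = (β_ Z R).hom ≫ M.act ≫ inr M := by
    rw [inl_inr_mul]
  rw [← BraidedCategory.braiding_naturality_assoc, IsCommMonObj.mul_comm] at h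
  rw [h, ract, Category.assoc]

end Sqz

end Vale.Agent.P241.H588
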